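import Claimed.Agent.R285.Hol.Tn
import Claimed.Agent.R285.Reg.Lat
import Claimed.Agent.R285.Geo.Walk
import Claimed.Agent.R285.Geo.Grid

/-!
# ROW 285 / PK-CHG ([B] Lemma 4.6) / Geo : the test norm of a field CENTRED at a site of a small polymer      (architect helper15)   -- also for PK-LOC (L4.5)

`X` a small polymer (`Conn R X`, `|X| ≤ n₀`), `v₀ ∈ sites X`, `k = chgK R n₀ = 2 n₀ R + 2`, `N = chgN R n₀ = 4 (k + 1)`.
* `chg_tnorm_center` : if `m |∇f| ≤ K`, `m² |∇²f| ≤ K` at all sites within `2 m (k + 1)` of `v₀` (explicit 1D distances `Reg.regD1`), then `tnorm g X (f - f v₀) ≤ N K`.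
* `chg_tnorm_fine`   : `L * tnorm g X (f - f v₀) ≤ N * tnorm g' (cl X) f`            ("radius allocation `C h₀ / L`" of L4.5, L4.6), for `2 (k + 1) < L`.
* `chg_tnorm_kernel` : `tnorm g X (Γ (·, v₀) - Γ (v₀, v₀)) ≤ N C_k`                  (from `ShellBounds.mixed` with an empty second word).
No clearance is needed.  All paper-free.

## LEAF `CHG-G1` : `chg_d1_zero`, `chg_d1_step`   (~100 lines)
PLAN.  `unfold Reg.regD1 Geom.fold`, `cases h : G.bc` (or `split`), everything is `omega` after `Int.emod_eq_of_lt`, `Int.emod_emod_of_dvd`, `Int.add_mul_emod_self`.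
Free: `|i - j| = d + 1`, move `j` one step towards `i` (no folding: the new coordinate is in `[0, M)`).   Periodic: if `|i - j| ≤ M - |i - j|` the same; otherwise move AWAY from `i`:
`j + 1 < M` (or `j ≥ 1`): `|i - j'| = |i - j| + 1`; wrap `j = M - 1 ↦ 0`: `i = d`, `2 i + 2 < M`.
## LEAF `CHG-G2` : `chg_walk1`, `chg_path`   (~120 lines)
PLAN.  `chg_walk1`: induction on `n = regD1 i₀ j` (generalising `j`): `chg_d1_zero`; `chg_d1_step` gives `j' = fold (j + σ)` at distance `n`, `h j - h i₀ = -(h j' - h j) + (h j' - h i₀)`.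
`chg_path`: `f v - f v₀ = (f (v.1, v.2) - f (v₀.1, v.2)) + (f (v₀.1, v.2) - f (v₀.1, v₀.2))`, `chg_walk1` on each axis;  `f (fold (j + σ), c) - f (j, c) = difs ![e] (G.lift f) (G.ι (j, c))`, `e = 0, 1` for `σ = 1, -1`
(`Reg.reg_dif_lift`, `Reg.reg_nb_wall`, `Reg.reg_fold_coe`, `Hol.difs_one`; `dir 0 = (1, 0)` ..); second axis `e = 2, 3`.  `Reg.reg_d1_self`.
## LEAF `CHG-G3` : `chg_d1_lt`, `chg_idist1_le_one`   (~120 lines)
PLAN.  Symmetric in `i, j` (`Reg.reg_d1_comm`, `Geo.geo_idist1_comm`): `i ≤ j`.  `Geo.geo_arc_in_hi`, `geo_arc_out_hi` with `f = g.blk1`, `hi = 2 m`;  `geo_arc_in_lo`, `geo_arc_out_lo` with `lo = m` (`hg.mono`, `hg.size`).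
`unfold Reg.regD1 Grid.idist1`, split on `G.bc`, `nlinarith`/`Nat.le_of_mul_le_mul_right`.
## LEAF `CHG-G4` : `chg_idist_le`, `chg_close`, `chg_tnorm_center`   (~150 lines)
PLAN.  `chg_idist_le`: `v ∈ Dm X`: `blk v` within `2` of some `a ∈ X`; `Geo.geo_tour_dist g.idist ..` (`Geo.geo_idist_self/comm/triangle`, `Geo.geo_conn_iff` is `Iff.rfl`) gives `idist (blk v₀) a ≤ 2 |X| R ≤ 2 n₀ R`.
`chg_close`: `chg_d1_lt` on each axis.   `chg_tnorm_center`: `Hol.tnorm_le_iff`; values: `chg_path` with `K / m`; differences: `(fun v => f v - f v₀) = f + fun _ => -f v₀`, `Hol.lift_add`, `Hol.difs_add`, `Hol.difs_const`; `1 ≤ N`.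
## LEAF `CHG-G5` : `chg_near_Dm`, `chg_tnorm_fine`, `chg_tnorm_kernel`   (~200 lines)
PLAN.  `chg_near_Dm`: `chg_idist1_le_one` for `g'`; `blk' v₀ = up (blk v₀) ∈ cl X` (`Hol.blk_up`).   `chg_tnorm_fine`: `chg_tnorm_center` with `K = tnorm' / L`, `Hol.tnorm_spec` at `y ∈ Dm' (cl X)`, `g'.m = L m`.
`chg_tnorm_kernel`: `K = C_k`; `difs a (G.lift fun v => Γ v v₀) (ι y) = kdif G a ![] Γ (ι y) (ι v₀)` (`difs` of the empty word is the identity, `Reg.reg_pi_iota`), `(m + dist)^r ≥ m^r`;  `Matrix.mulVec_single_one`.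
-/

set_option autoImplicit false

namespace Claimed.Agent.R285.Chg

open scoped BigOperators ENNReal NNReal
open Claimed.Agent.R285.RG Claimed.Agent.R285.Hol Claimed.Agent.R285.Reg

noncomputable section

variable {G : Geom}

/-- bound for the index distance from `v₀` to a block of the collar of a small polymer -/
def chgK (R n0 : ℕ) : ℕ := 2 * n0 * R + 2

/-- the geometric constant -/
def chgN (R n0 : ℕ) : ℕ := 4 * (chgK R n0 + 1)

/-! ### LEAF `CHG-G1` (proved, helper278) -/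

theorem chgl_fold_in (x : ℤ) (h0 : 0 ≤ x) (h1 : x < G.M) : ((G.fold x : ℕ) : ℤ) = x := by
  unfold Geom.fold
  split
  · simp only []
    rw [Int.emod_eq_of_lt h0 h1, Int.toNat_of_nonneg h0]
  · simp only []
    rw [Int.emod_eq_of_lt h0 (by omega), if_pos h1, Int.toNat_of_nonneg h0]

theorem chgl_fold_per_top (h : G.bc = BC.per) : ((G.fold (G.M : ℤ) : ℕ) : ℤ) = 0 := by
  unfold Geom.fold
  split
  · simp
  · rename_i h'; rw [h] at h'; cases h'

theorem chgl_fold_per_bot (h : G.bc = BC.per) : ((G.fold (-1) : ℕ) : ℤ) = G.M - 1 := by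
  have hM := G.hM
  unfold Geom.fold
  split
  · simp only []
    have h1 : (-1 : ℤ) % G.M = G.M - 1 := by
      rw [← Int.add_emod_right, Int.emod_eq_of_lt (by omega) (by omega)]
      ring
    rw [h1, Int.toNat_of_nonneg (by omega)]
  · rename_i h'; rw [h] at h'; cases h'

theorem chgl_d1_per (h : G.bc = BC.per) (i j : Fin G.M) :
    regD1 G i j = min ((i : ℤ) - j).natAbs (G.M - ((i : ℤ) - j).natAbs) := by
  unfold regD1; rw [h]

theorem chgl_d1_free (h : G.bc = BC.free) (i j : Fin G.M) : regD1 G i j = ((i : ℤ) - j).natAbs := by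
  unfold regD1; rw [h]

theorem chg_d1_zero (i j : Fin G.M) (h : regD1 G i j = 0) : i = j := by
  have hi := i.2
  have hj := j.2
  apply Fin.ext
  rcases Geo.geo_bc_cases G with hb | hb
  · rw [chgl_d1_per hb] at h; omega
  · rw [chgl_d1_free hb] at h; omega

/-- a geodesic step -/
theorem chg_d1_step (i j : Fin G.M) (d : ℕ) (h : regD1 G i j = d + 1) :
    ∃ σ : ℤ, (σ = 1 ∨ σ = -1) ∧ regD1 G i (G.fold (((j : ℕ) : ℤ) + σ)) = d := by
  have hi := i.2
  have hj := j.2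
  have hup : (j : ℕ) + 1 < G.M → ((G.fold (((j : ℕ) : ℤ) + 1) : ℕ) : ℤ) = (j : ℕ) + 1 := fun h' =>
    chgl_fold_in _ (by omega) (by omega)
  have hdn : 1 ≤ (j : ℕ) → ((G.fold (((j : ℕ) : ℤ) + -1) : ℕ) : ℤ) = (j : ℕ) - 1 := fun h' => by
    rw [chgl_fold_in _ (by omega) (by omega)]; ring
  rcases Geo.geo_bc_cases G with hb | hb
  · rw [chgl_d1_per hb] at h
    have htop : (j : ℕ) + 1 = G.M → ((G.fold (((j : ℕ) : ℤ) + 1) : ℕ) : ℤ) = 0 := fun h' => by
      have : ((j : ℕ) : ℤ) + 1 = (G.M : ℤ) := by exact_mod_cast h'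
      rw [this, chgl_fold_per_top hb]
    have hbot : (j : ℕ) = 0 → ((G.fold (((j : ℕ) : ℤ) + -1) : ℕ) : ℤ) = G.M - 1 := fun h' => by
      have : ((j : ℕ) : ℤ) + -1 = -1 := by rw [h']; simp
      rw [this, chgl_fold_per_bot hb]
    by_cases hc : ((i : ℤ) - j).natAbs ≤ G.M - ((i : ℤ) - j).natAbs
    · -- towards `i`
      rcases lt_or_ge (j : ℕ) (i : ℕ) with hji | hji
      · refine ⟨1, Or.inl rfl, ?_⟩
        rw [chgl_d1_per hb]
        have := hup (by omega)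
        omega
      · refine ⟨-1, Or.inr rfl, ?_⟩
        rw [chgl_d1_per hb]
        have := hdn (by omega)
        omega
    · -- away from `i`
      rcases lt_or_ge (j : ℕ) (i : ℕ) with hji | hji
      · refine ⟨-1, Or.inr rfl, ?_⟩
        rw [chgl_d1_per hb]
        rcases Nat.eq_zero_or_pos (j : ℕ) with h0 | h0
        · have := hbot h0
          omega
        · have := hdn h0
          omega
      · refine ⟨1, Or.inl rfl, ?_⟩
        rw [chgl_d1_per hb]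
        rcases Nat.lt_or_ge ((j : ℕ) + 1) G.M with h0 | h0
        · have := hup h0
          omega
        · have := htop (by omega)
          omega
  · rw [chgl_d1_free hb] at h
    rcases lt_or_ge (j : ℕ) (i : ℕ) with hji | hji
    · refine ⟨1, Or.inl rfl, ?_⟩
      rw [chgl_d1_free hb]
      have := hup (by omega)
      omega
    · refine ⟨-1, Or.inr rfl, ?_⟩
      rw [chgl_d1_free hb]
      have := hdn (by omega)
      omega


/-! ### LEAF `CHG-G2` (proved) -/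

theorem chg_walk1 {α : Type} [NormedAddCommGroup α] (h : Fin G.M → α) (i0 : Fin G.M) (d : ℕ) (K : ℝ≥0)
    (hK : ∀ j, regD1 G i0 j ≤ d → ∀ σ : ℤ, σ = 1 ∨ σ = -1 → ‖h (G.fold (((j : ℕ) : ℤ) + σ)) - h j‖₊ ≤ K)
    (j : Fin G.M) (hj : regD1 G i0 j ≤ d) : ‖h j - h i0‖₊ ≤ d * K := by
  have key : ∀ n : ℕ, ∀ j, regD1 G i0 j = n → n ≤ d → ‖h j - h i0‖₊ ≤ n * K := by
    intro n
    induction n with
    | zero =>
      intro j hj _
      rw [← chg_d1_zero i0 j hj]; simp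
    | succ n ih =>
      intro j hj hn
      obtain ⟨σ, hσ, hd⟩ := chg_d1_step i0 j n hj
      have h1 := ih _ hd (by omega)
      have h2 := hK j (by omega) σ hσ
      calc ‖h j - h i0‖₊ = ‖(h (G.fold (((j : ℕ) : ℤ) + σ)) - h i0) - (h (G.fold (((j : ℕ) : ℤ) + σ)) - h j)‖₊ := by
            congr 1; abel
        _ ≤ ‖h (G.fold (((j : ℕ) : ℤ) + σ)) - h i0‖₊ + ‖h (G.fold (((j : ℕ) : ℤ) + σ)) - h j‖₊ := nnnorm_sub_le _ _
        _ ≤ n * K + K := add_le_add h1 h2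
        _ = ((n + 1 : ℕ) : ℝ≥0) * K := by push_cast; ring
  calc ‖h j - h i0‖₊ ≤ (regD1 G i0 j : ℝ≥0) * K := key _ j rfl hj
    _ ≤ d * K := by gcongr

theorem chgl_step_fst {α : Type} [NormedAddCommGroup α] (f : G.V → α) (y : G.V) (σ : ℤ) (hσ : σ = 1 ∨ σ = -1) :
    ∃ a : Fin 1 → Fin 4, f (G.fold (((y.1 : ℕ) : ℤ) + σ), y.2) - f y = difs a (G.lift f) (G.ι y) := by
  rcases hσ with rfl | rfl
  · refine ⟨fun _ => 0, ?_⟩
    rw [difs_one, reg_dif_lift, reg_nb_wall]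
    simp [dir, reg_fold_coe]
  · refine ⟨fun _ => 1, ?_⟩
    rw [difs_one, reg_dif_lift, reg_nb_wall]
    simp [dir, reg_fold_coe]

theorem chgl_step_snd {α : Type} [NormedAddCommGroup α] (f : G.V → α) (y : G.V) (σ : ℤ) (hσ : σ = 1 ∨ σ = -1) :
    ∃ a : Fin 1 → Fin 4, f (y.1, G.fold (((y.2 : ℕ) : ℤ) + σ)) - f y = difs a (G.lift f) (G.ι y) := by
  rcases hσ with rfl | rfl
  · refine ⟨fun _ => 2, ?_⟩
    rw [difs_one, reg_dif_lift, reg_nb_wall]
    simp [dir, reg_fold_coe]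
  · refine ⟨fun _ => 3, ?_⟩
    rw [difs_one, reg_dif_lift, reg_nb_wall]
    simp [dir, reg_fold_coe]

theorem chg_path {α : Type} [NormedAddCommGroup α] (f : G.V → α) (v0 v : G.V) (d : ℕ) (K : ℝ≥0)
    (hK : ∀ y : G.V, regD1 G v0.1 y.1 ≤ d → regD1 G v0.2 y.2 ≤ d → ∀ a : Fin 1 → Fin 4, ‖difs a (G.lift f) (G.ι y)‖₊ ≤ K)
    (h1 : regD1 G v0.1 v.1 ≤ d) (h2 : regD1 G v0.2 v.2 ≤ d) : ‖f v - f v0‖₊ ≤ 2 * d * K := by
  have hA := chg_walk1 (fun j => f (j, v.2)) v0.1 d K (fun j hj σ hσ => by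
    obtain ⟨a, ha⟩ := chgl_step_fst f (j, v.2) σ hσ
    simp only at ha ⊢
    rw [ha]
    exact hK (j, v.2) hj h2 a) v.1 h1
  have hB := chg_walk1 (fun j => f (v0.1, j)) v0.2 d K (fun j hj σ hσ => by
    obtain ⟨a, ha⟩ := chgl_step_snd f (v0.1, j) σ hσ
    simp only at ha ⊢
    rw [ha]
    exact hK (v0.1, j) (by rw [reg_d1_self]; exact Nat.zero_le _) hj a) v.2 h2
  calc ‖f v - f v0‖₊ = ‖(f (v.1, v.2) - f (v0.1, v.2)) + (f (v0.1, v.2) - f (v0.1, v0.2))‖₊ := by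
        congr 1; abel
    _ ≤ ‖f (v.1, v.2) - f (v0.1, v.2)‖₊ + ‖f (v0.1, v.2) - f (v0.1, v0.2)‖₊ := nnnorm_add_le _ _
    _ ≤ d * K + d * K := add_le_add hA hB
    _ = 2 * d * K := by ring


/-! ### LEAF `CHG-G3` (proved) -/

theorem chg_d1_lt (g : Grid G) (hg : g.Ok) (i j : Fin G.M) :
    regD1 G i j < 2 * g.m * (g.idist1 (g.blk1 i) (g.blk1 j) + 1) := by
  have key : ∀ i j : Fin G.M, i ≤ j → regD1 G i j < 2 * g.m * (g.idist1 (g.blk1 i) (g.blk1 j) + 1) := by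
    intro i j hij
    have hm := hg.pos
    have hhi : ∀ c, (Finset.univ.filter fun x => g.blk1 x = c).card ≤ 2 * g.m := fun c => (hg.size c).2.le
    have hab : (g.blk1 i : ℕ) ≤ g.blk1 j := hg.mono hij
    have hij' : (i : ℕ) ≤ j := hij
    have A1 := Geo.geo_arc_in_hi g.blk1 hg.mono hhi hij
    have e1 : ((i : ℤ) - j).natAbs = (j : ℕ) - i := by omega
    have e2 : ((g.blk1 i : ℤ) - g.blk1 j).natAbs = (g.blk1 j : ℕ) - g.blk1 i := by omega
    have c1 : (j : ℕ) - i < 2 * g.m * ((g.blk1 j : ℕ) - g.blk1 i + 1) := by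
      calc (j : ℕ) - i < (j : ℕ) - i + 1 := Nat.lt_succ_self _
        _ ≤ ((g.blk1 j : ℕ) - g.blk1 i + 1) * (2 * g.m) := A1
        _ = _ := by ring
    rcases Geo.geo_bc_cases G with hb | hb
    · rw [chgl_d1_per hb, Geo.geo_idist1_per g hb, e1, e2]
      rcases le_total ((g.blk1 j : ℕ) - g.blk1 i) (g.n - ((g.blk1 j : ℕ) - g.blk1 i)) with h | h
      · rw [min_eq_left h]
        exact lt_of_le_of_lt (min_le_left _ _) c1
      · rw [min_eq_right h]
        rcases eq_or_lt_of_le hij with h0 | h0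
        · rw [h0]
          simp only [Nat.sub_self]
          refine lt_of_le_of_lt (min_le_left _ _) ?_
          positivity
        · have A2 := Geo.geo_arc_out_hi g.blk1 hg.mono hhi h0
          refine lt_of_le_of_lt (min_le_right _ _) ?_
          calc G.M - ((j : ℕ) - i) < G.M - ((j : ℕ) - i) + 1 := Nat.lt_succ_self _
            _ ≤ (g.n - ((g.blk1 j : ℕ) - g.blk1 i) + 1) * (2 * g.m) := A2
            _ = _ := by ring
    · rw [chgl_d1_free hb, Geo.geo_idist1_free g hb, e1, e2]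
      exact c1
  rcases le_total i j with h | h
  · exact key i j h
  · rw [reg_d1_comm, Geo.geo_idist1_comm]
    exact key j i h

theorem chgl_mul_lt {x m y : ℕ} (h1 : x * m ≤ y) (h2 : y < m) : x = 0 := by
  by_contra h
  have : m ≤ x * m := Nat.le_mul_of_pos_left _ (Nat.pos_of_ne_zero h)
  omega

theorem chg_idist1_le_one (g : Grid G) (hg : g.Ok) (i j : Fin G.M) (h : regD1 G i j < g.m) :
    g.idist1 (g.blk1 i) (g.blk1 j) ≤ 1 := by
  have key : ∀ i j : Fin G.M, i ≤ j → regD1 G i j < g.m → g.idist1 (g.blk1 i) (g.blk1 j) ≤ 1 := by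
    intro i j hij h
    have hlo : ∀ c, g.m ≤ (Finset.univ.filter fun x => g.blk1 x = c).card := fun c => (hg.size c).1
    have hab : (g.blk1 i : ℕ) ≤ g.blk1 j := hg.mono hij
    have hij' : (i : ℕ) ≤ j := hij
    have B1 := Geo.geo_arc_in_lo g.blk1 hg.mono hlo hij
    have B2 := Geo.geo_arc_out_lo g.blk1 hg.mono hlo hij
    have e1 : ((i : ℤ) - j).natAbs = (j : ℕ) - i := by omega
    have e2 : ((g.blk1 i : ℤ) - g.blk1 j).natAbs = (g.blk1 j : ℕ) - g.blk1 i := by omega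
    rcases Geo.geo_bc_cases G with hb | hb
    · rw [chgl_d1_per hb, e1] at h
      rw [Geo.geo_idist1_per g hb, e2]
      rcases min_lt_iff.1 h with h' | h'
      · have := chgl_mul_lt B1 (by omega)
        exact le_trans (min_le_left _ _) (by omega)
      · have := chgl_mul_lt B2 (by omega)
        exact le_trans (min_le_right _ _) (by omega)
    · rw [chgl_d1_free hb, e1] at h
      rw [Geo.geo_idist1_free g hb, e2]
      have := chgl_mul_lt B1 (by omega)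
      omega
  rcases le_total i j with h' | h'
  · exact key i j h' h
  · rw [Geo.geo_idist1_comm]
    exact key j i h' (by rwa [reg_d1_comm])



/-! ### LEAF `CHG-G4` (proved) -/

theorem chg_idist_le (g : Grid G) (R n0 : ℕ) (X : Finset g.I) (hX : g.Conn R X) (hc : X.card ≤ n0)
    (v0 : G.V) (hv0 : v0 ∈ g.sites X) (v : G.V) (hv : v ∈ g.Dm X) : g.idist (g.blk v0) (g.blk v) ≤ chgK R n0 := by
  classical
  simp only [Grid.Dm, Grid.sites, Grid.collar, Finset.mem_filter, Finset.mem_univ, true_and] at hv hv0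
  obtain ⟨a, ha, hav⟩ := hv
  have h1 := Geo.geo_tour_dist g.idist (Geo.geo_idist_self g) (Geo.geo_idist_comm g) (Geo.geo_idist_triangle g)
    (R := R) (V := X) hX hv0 ha
  have h2 : 2 * X.card * R ≤ 2 * n0 * R := Nat.mul_le_mul_right _ (Nat.mul_le_mul_left _ hc)
  have h3 := Geo.geo_idist_triangle g (g.blk v0) a (g.blk v)
  unfold chgK
  omega

theorem chg_close (g : Grid G) (hg : g.Ok) (R n0 : ℕ) (X : Finset g.I) (hX : g.Conn R X) (hc : X.card ≤ n0)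
    (v0 : G.V) (hv0 : v0 ∈ g.sites X) (v : G.V) (hv : v ∈ g.Dm X) :
    regD1 G v0.1 v.1 ≤ 2 * g.m * (chgK R n0 + 1) ∧ regD1 G v0.2 v.2 ≤ 2 * g.m * (chgK R n0 + 1) := by
  have h := chg_idist_le g R n0 X hX hc v0 hv0 v hv
  have h1 : g.idist1 (g.blk1 v0.1) (g.blk1 v.1) ≤ chgK R n0 := le_trans (le_max_left _ _) h
  have h2 : g.idist1 (g.blk1 v0.2) (g.blk1 v.2) ≤ chgK R n0 := le_trans (le_max_right _ _) h
  exact ⟨(chg_d1_lt g hg v0.1 v.1).le.trans (Nat.mul_le_mul_left _ (by omega)),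
    (chg_d1_lt g hg v0.2 v.2).le.trans (Nat.mul_le_mul_left _ (by omega))⟩

theorem chgl_difs_sub_const {α : Type} [NormedAddCommGroup α] (f : G.V → α) (c : α) {r : ℕ} (a : Fin (r + 1) → Fin 4)
    (x : ℤ × ℤ) : difs a (G.lift fun v => f v - c) x = difs a (G.lift f) x := by
  have h : G.lift (fun v => f v - c) = fun y => G.lift f y + (fun _ => -c) y := by
    ext y; simp [Geom.lift, sub_eq_add_neg]
  rw [h, difs_add, difs_const, add_zero]

theorem chg_tnorm_center {α : Type} [NormedAddCommGroup α] (g : Grid G) (hg : g.Ok) (R n0 : ℕ) (X : Finset g.I)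
    (hX : g.Conn R X) (hc : X.card ≤ n0) (v0 : G.V) (hv0 : v0 ∈ g.sites X) (f : G.V → α) (K : ℝ≥0)
    (hK : ∀ y : G.V, regD1 G v0.1 y.1 ≤ 2 * g.m * (chgK R n0 + 1) → regD1 G v0.2 y.2 ≤ 2 * g.m * (chgK R n0 + 1) →
      (∀ a : Fin 1 → Fin 4, (g.m : ℝ≥0) * ‖difs a (G.lift f) (G.ι y)‖₊ ≤ K) ∧
      ∀ a : Fin 2 → Fin 4, (g.m : ℝ≥0) ^ 2 * ‖difs a (G.lift f) (G.ι y)‖₊ ≤ K) :
    tnorm g X (fun v => f v - f v0) ≤ (chgN R n0 : ℝ≥0) * K := by
  have hm : (0 : ℝ≥0) < g.m := by exact_mod_cast hg.pos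
  have hN : K ≤ (chgN R n0 : ℝ≥0) * K := by
    have : (1 : ℝ≥0) ≤ chgN R n0 := by
      have : 1 ≤ chgN R n0 := by unfold chgN; omega
      exact_mod_cast this
    exact le_mul_of_one_le_left zero_le this
  rw [tnorm_le_iff]
  intro v hv
  obtain ⟨c1, c2⟩ := chg_close g hg R n0 X hX hc v0 hv0 v hv
  refine ⟨?_, fun a => ?_, fun a => ?_⟩
  · have h1 := chg_path f v0 v (2 * g.m * (chgK R n0 + 1)) (K / g.m) (fun y h1 h2 a => by
      rw [le_div_iff₀ hm, mul_comm]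
      exact (hK y h1 h2).1 a) c1 c2
    refine h1.trans (le_of_eq ?_)
    unfold chgN
    push_cast
    field_simp
    ring
  · rw [chgl_difs_sub_const]
    exact ((hK v c1 c2).1 a).trans hN
  · rw [chgl_difs_sub_const]
    exact ((hK v c1 c2).2 a).trans hN


/-! ### LEAF `CHG-G5` (proved) -/

theorem chg_near_Dm {D0 ℓ : ℕ} (P : Pair G D0 ℓ) (X : Finset P.g.I) (v0 : G.V) (hv0 : v0 ∈ P.g.sites X) (y : G.V)
    (h1 : regD1 G v0.1 y.1 < P.g'.m) (h2 : regD1 G v0.2 y.2 < P.g'.m) : y ∈ P.g'.Dm (P.N.cl X) := by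
  classical
  simp only [Grid.sites, Finset.mem_filter, Finset.mem_univ, true_and] at hv0
  simp only [Grid.Dm, Grid.sites, Grid.collar, Finset.mem_filter, Finset.mem_univ, true_and]
  refine ⟨P.g'.blk v0, ?_, ?_⟩
  · rw [blk_up]
    exact Finset.mem_image_of_mem _ hv0
  · have a1 := chg_idist1_le_one P.g' P.ok' v0.1 y.1 h1
    have a2 := chg_idist1_le_one P.g' P.ok' v0.2 y.2 h2
    have : P.g'.idist (P.g'.blk v0) (P.g'.blk y) ≤ 1 := max_le a1 a2
    omega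

/-- **radius allocation**: a coarse test direction, centred at `v₀`, is a fine test direction of size `N / L` -/
theorem chg_tnorm_fine {α : Type} [NormedAddCommGroup α] {D0 ℓ : ℕ} (P : Pair G D0 ℓ) (R n0 : ℕ)
    (hℓ : 2 * (chgK R n0 + 1) < 2 ^ ℓ) (X : Finset P.g.I) (hX : P.g.Conn R X) (hc : X.card ≤ n0)
    (v0 : G.V) (hv0 : v0 ∈ P.g.sites X) (f : G.V → α) :
    (2 ^ ℓ : ℝ≥0) * tnorm P.g X (fun v => f v - f v0) ≤ (chgN R n0 : ℝ≥0) * tnorm P.g' (P.N.cl X) f := by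
  set t' := tnorm P.g' (P.N.cl X) f with ht'
  have hL : (0 : ℝ≥0) < 2 ^ ℓ := by positivity
  have hL1 : (1 : ℝ≥0) ≤ 2 ^ ℓ := one_le_pow₀ (by norm_num)
  have hm' : (P.g'.m : ℝ≥0) = 2 ^ ℓ * P.g.m := by
    rw [P.hS]; push_cast; ring
  have hlt : 2 * P.g.m * (chgK R n0 + 1) < P.g'.m := by
    rw [P.hS]
    have := P.ok.pos
    calc 2 * P.g.m * (chgK R n0 + 1) = (2 * (chgK R n0 + 1)) * P.g.m := by ring
      _ < 2 ^ ℓ * P.g.m := Nat.mul_lt_mul_of_pos_right hℓ this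
  have key := chg_tnorm_center P.g P.ok R n0 X hX hc v0 hv0 f (t' / 2 ^ ℓ) (fun y h1 h2 => by
    have hy := chg_near_Dm P X v0 hv0 y (lt_of_le_of_lt h1 hlt) (lt_of_le_of_lt h2 hlt)
    obtain ⟨_, s1, s2⟩ := tnorm_spec P.g' (P.N.cl X) f y hy
    refine ⟨fun a => ?_, fun a => ?_⟩
    · rw [le_div_iff₀ hL]
      have := s1 a
      rw [hm'] at this
      calc (P.g.m : ℝ≥0) * ‖difs a (G.lift f) (G.ι y)‖₊ * 2 ^ ℓ
          = 2 ^ ℓ * P.g.m * ‖difs a (G.lift f) (G.ι y)‖₊ := by ring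
        _ ≤ t' := this
    · rw [le_div_iff₀ hL]
      have := s2 a
      rw [hm'] at this
      calc (P.g.m : ℝ≥0) ^ 2 * ‖difs a (G.lift f) (G.ι y)‖₊ * 2 ^ ℓ
          = 1 * (2 ^ ℓ * ((P.g.m : ℝ≥0) ^ 2 * ‖difs a (G.lift f) (G.ι y)‖₊)) := by ring
        _ ≤ 2 ^ ℓ * (2 ^ ℓ * ((P.g.m : ℝ≥0) ^ 2 * ‖difs a (G.lift f) (G.ι y)‖₊)) := by gcongr
        _ = (2 ^ ℓ * (P.g.m : ℝ≥0)) ^ 2 * ‖difs a (G.lift f) (G.ι y)‖₊ := by ring
        _ ≤ t' := this)
  calc (2 ^ ℓ : ℝ≥0) * tnorm P.g X (fun v => f v - f v0) ≤ 2 ^ ℓ * ((chgN R n0 : ℝ≥0) * (t' / 2 ^ ℓ)) := by gcongr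
    _ = (chgN R n0 : ℝ≥0) * t' := by field_simp

theorem chgl_kdif_nil {r : ℕ} (a : Fin r → Fin 4) (b : Fin 0 → Fin 4) (Γ : Matrix G.V G.V ℝ) (y v0 : G.V) :
    kdif G a b Γ (G.ι y) (G.ι v0) = difs a (G.lift fun v => Γ v v0) (G.ι y) := by
  unfold kdif
  congr 1
  ext x'
  have : difs b (fun y' => Γ (G.π x') (G.π y')) (G.ι v0) = Γ (G.π x') (G.π (G.ι v0)) := by
    simp [difs]
  rw [this, reg_pi_iota]
  rfl

/-- the centred kernel is a test direction of size `O (1)`, uniformly in `L` -/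
theorem chg_tnorm_kernel (g : Grid G) (hg : g.Ok) (R n0 : ℕ) (X : Finset g.I) (hX : g.Conn R X) (hc : X.card ≤ n0)
    (v0 : G.V) (hv0 : v0 ∈ g.sites X) (Γ : Matrix G.V G.V ℝ) (Ck : ℝ)
    (hm : ∀ r r' : ℕ, 1 ≤ r + r' → r + r' ≤ 12 → ∀ (a : Fin r → Fin 4) (b : Fin r' → Fin 4) (v w : G.V),
      |kdif G a b Γ (G.ι v) (G.ι w)| ≤ Ck * (((g.m : ℝ) + G.dist v w) ^ (r + r'))⁻¹) :
    (tnorm g X (fun v => Γ.mulVec (Pi.single v0 1) v - Γ v0 v0) : ℝ) ≤ chgN R n0 * Ck := by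
  have hm0 : (0 : ℝ) < g.m := by exact_mod_cast hg.pos
  have hb : ∀ (r : ℕ), 1 ≤ r → r ≤ 12 → ∀ (a : Fin r → Fin 4) (y : G.V),
      (g.m : ℝ) ^ r * |difs a (G.lift fun v => Γ v v0) (G.ι y)| ≤ Ck ∧ 0 ≤ Ck := by
    intro r h1 h2 a y
    have h := hm r 0 (by omega) (by omega) a (fun i => i.elim0) y v0
    rw [chgl_kdif_nil, add_zero] at h
    have hd : (0 : ℝ) ≤ G.dist y v0 := Nat.cast_nonneg _
    have hpos : 0 < ((g.m : ℝ) + G.dist y v0) ^ r := by positivity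
    have hCk : 0 ≤ Ck := by
      have h3 : 0 ≤ Ck * (((g.m : ℝ) + G.dist y v0) ^ r)⁻¹ := (abs_nonneg _).trans h
      exact nonneg_of_mul_nonneg_left h3 (by positivity)
    refine ⟨?_, hCk⟩
    have h4 : (g.m : ℝ) ^ r ≤ ((g.m : ℝ) + G.dist y v0) ^ r := by gcongr; linarith
    calc (g.m : ℝ) ^ r * |difs a (G.lift fun v => Γ v v0) (G.ι y)|
        ≤ ((g.m : ℝ) + G.dist y v0) ^ r * (Ck * (((g.m : ℝ) + G.dist y v0) ^ r)⁻¹) :=
          mul_le_mul h4 h (abs_nonneg _) hpos.le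
      _ = Ck := by field_simp
  have hCk : 0 ≤ Ck := (hb 1 le_rfl (by norm_num) (fun _ => 0) v0).2
  have hf : (fun v => Γ.mulVec (Pi.single v0 1) v - Γ v0 v0) = fun v => (fun v => Γ v v0) v - (fun v => Γ v v0) v0 := by
    ext v
    simp
  rw [hf]
  have key := chg_tnorm_center g hg R n0 X hX hc v0 hv0 (fun v => Γ v v0) Ck.toNNReal (fun y _ _ => by
    refine ⟨fun a => ?_, fun a => ?_⟩
    · rw [← NNReal.coe_le_coe, Real.coe_toNNReal _ hCk]
      have := (hb 1 le_rfl (by norm_num) a y).1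
      simpa using this
    · rw [← NNReal.coe_le_coe, Real.coe_toNNReal _ hCk]
      have := (hb 2 (by norm_num) (by norm_num) a y).1
      simpa using this)
  have := NNReal.coe_le_coe.2 key
  simpa [Real.coe_toNNReal _ hCk] using this

end

end Claimed.Agent.R285.Chg
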