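import Claimed.Agent.R285.Hol.Cv

/-!
# ROW 285 / PK-CHG ([B] Lemma 4.6 `rg:charged`) / Shift : complex Cameron-Martin for CHARGED functions      (architect helper15)

`Hol.gauss_shift_im` needs `|s| * tnorm (Γ η) < h₀`; for `η = δ_{v₀}` the kernel `w = Γ (·, v₀)` has sup norm `~ c log L`, so it cannot be used in L4.6.
Here the constant part `c₀` of `w` is split off BEFORE the continuation: a function with `F (z + c) = e^{iθc} F (z)` for REAL constants `c` satisfies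
`E F (z + ζ) = e^{s² q / 2 - θ s c₀} E [ e^{-i s ⟨η, ζ⟩} F (z + ζ + i s (w - c₀)) ]`,  `q = ⟨η, Γ η⟩`,  as soon as `tnorm (Im z) + |s| tnorm (w - c₀) < h₀`.
The proof is the one of `Hol.gauss_shift_im` (helper278) along the line `a ↦ z + a (w - c₀)`, with the entire factor `e^{iθ a c₀}`.   NO sorry in this file.
-/

set_option autoImplicit false

namespace Claimed.Agent.R285.Chg

open scoped BigOperators ENNReal NNReal
open MeasureTheory ProbabilityTheory Filter Topology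
open Claimed.Agent.R285.RG Claimed.Agent.R285.Hol

noncomputable section

variable {G : Geom}

/-- the interpolating function along a general real direction `u` -/
def chgFun (F : Fn G) (η u : G.V → ℝ) (q : ℝ) (z : G.V → ℂ) (a : ℂ) (ζ : G.V → ℝ) : ℂ :=
  Complex.exp (-(a * ((η ⬝ᵥ ζ : ℝ) : ℂ)) - a ^ 2 * (q : ℂ) / 2) * F (z + toC ζ + a • toC u)

theorem chgFun_differentiableOn (p : Par) (g : Grid G) (V : Extra g) (X : Finset g.I) (Γ : Matrix G.V G.V ℝ) (hΓ : Γ.PosSemidef)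
    (F : Fn G) (hF : Hol p.h0 g X F) (hfin : fnSize p g V X F ≠ ⊤)
    (hint : ∀ φ : G.V → ℝ, ∫⁻ ζ, ENNReal.ofReal (Wt g p.δ p.κ V X (φ + ζ)) ∂(gauss G Γ) ≠ ⊤)
    (η u : G.V → ℝ) (q : ℝ) (z : G.V → ℂ) :
    DifferentiableOn ℂ (fun a => ∫ ζ, chgFun F η u q z a ζ ∂(gauss G Γ)) (lineDom p.h0 g X z u) := by
  have hre : ∀ (a : ℂ) (ζ : G.V → ℝ), z + toC ζ + a • toC u = z + a • toC u + toC ζ := fun a ζ => by abel
  refine hol_integral (gauss G Γ) _ (lineDom_isOpen _ _ _ _ _) (fun a ζ => chgFun F η u q z a ζ) (fun ζ => ?_)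
    (fun a ha => ?_) (fun a₀ ha₀ => ?_)
  · unfold chgFun
    refine DifferentiableOn.mul (by fun_prop) ?_
    refine hF.comp (by fun_prop) fun a ha => ?_
    rw [hre]
    exact strip_add_toC ha ζ
  · unfold chgFun
    refine Continuous.aestronglyMeasurable (Continuous.mul ?_ ?_)
    · have := dot_continuous (G := G) η
      fun_prop
    · simp_rw [hre]
      exact continuous_comp_shift hF ha
  · obtain ⟨ε, hε, hb⟩ := strip_local_bound p g V X F hfin ha₀
    set ε' := min 1 (ε / (‖toC u‖ + 1)) with hε'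
    have hε'0 : 0 < ε' := lt_min one_pos (by positivity)
    set φ₀ : G.V → ℝ := fun v => ((z + a₀ • toC u) v).re with hφ₀
    set C := Real.exp ((‖a₀‖ + 1) ^ 2 * |q| / 2) with hC
    refine ⟨ε', hε'0, fun ζ => C * (Real.exp (-(a₀.re - ε') * (η ⬝ᵥ ζ)) * (ptNorm p.h0 g X F (φ₀ + ζ)).toReal
      + Real.exp (-(a₀.re + ε') * (η ⬝ᵥ ζ)) * (ptNorm p.h0 g X F (φ₀ + ζ)).toReal), ?_, fun a ha ζ => ?_⟩
    · exact ((exp_ptNorm_integrable p g V X Γ hΓ F hF hfin hint η φ₀ _).add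
        (exp_ptNorm_integrable p g V X Γ hΓ F hF hfin hint η φ₀ _)).const_mul _
    · rw [Metric.mem_ball, dist_eq_norm] at ha
      have ha1 : ‖a - a₀‖ < 1 := ha.trans_le (min_le_left _ _)
      have ha2 : ‖a - a₀‖ < ε / (‖toC u‖ + 1) := ha.trans_le (min_le_right _ _)
      have hw' : z + a • toC u ∈ Metric.ball (z + a₀ • toC u) ε := by
        rw [Metric.mem_ball, dist_eq_norm]
        have h1 : z + a • toC u - (z + a₀ • toC u) = (a - a₀) • toC u := by rw [sub_smul]; abel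
        rw [h1, norm_smul]
        calc ‖a - a₀‖ * ‖toC u‖ ≤ ‖a - a₀‖ * (‖toC u‖ + 1) := by gcongr; linarith
          _ < ε / (‖toC u‖ + 1) * (‖toC u‖ + 1) := by gcongr
          _ = ε := by field_simp
      have hFb := hb _ hw' ζ
      unfold chgFun
      rw [hre, norm_mul, Complex.norm_exp]
      have hP : 0 ≤ (ptNorm p.h0 g X F (φ₀ + ζ)).toReal := ENNReal.toReal_nonneg
      have hexp : Real.exp ((-(a * ((η ⬝ᵥ ζ : ℝ) : ℂ)) - a ^ 2 * (q : ℂ) / 2).re)
          ≤ C * (Real.exp (-(a₀.re - ε') * (η ⬝ᵥ ζ)) + Real.exp (-(a₀.re + ε') * (η ⬝ᵥ ζ))) := by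
        have h1 : (-(a * ((η ⬝ᵥ ζ : ℝ) : ℂ)) - a ^ 2 * (q : ℂ) / 2).re = -(a.re * (η ⬝ᵥ ζ)) + -((a ^ 2).re * q / 2) := by
          simp [Complex.mul_re]
          ring
        rw [h1, Real.exp_add, mul_comm]
        have h2 : -((a ^ 2).re * q / 2) ≤ (‖a₀‖ + 1) ^ 2 * |q| / 2 := by
          have h3 : |(a ^ 2).re| ≤ (‖a₀‖ + 1) ^ 2 := by
            calc |(a ^ 2).re| ≤ ‖a ^ 2‖ := Complex.abs_re_le_norm _
              _ = ‖a‖ ^ 2 := norm_pow _ _
              _ ≤ (‖a₀‖ + 1) ^ 2 := by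
                gcongr
                calc ‖a‖ = ‖a₀ + (a - a₀)‖ := by congr 1; ring
                  _ ≤ ‖a₀‖ + ‖a - a₀‖ := norm_add_le _ _
                  _ ≤ ‖a₀‖ + 1 := by linarith
          have h4 : -((a ^ 2).re * q) ≤ |(a ^ 2).re| * |q| := by
            rw [← abs_mul]; exact neg_le_abs _
          have h5 : |(a ^ 2).re| * |q| ≤ (‖a₀‖ + 1) ^ 2 * |q| := by gcongr
          linarith
        have h6 : |a.re - a₀.re| ≤ ε' := by
          rw [← Complex.sub_re]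
          exact (Complex.abs_re_le_norm _).trans ha.le
        exact mul_le_mul (Real.exp_le_exp.2 h2) (exp_mul_le_add _ _ _ _ h6) (Real.exp_pos _).le (Real.exp_pos _).le
      calc Real.exp ((-(a * ((η ⬝ᵥ ζ : ℝ) : ℂ)) - a ^ 2 * (q : ℂ) / 2).re) * ‖F (z + a • toC u + toC ζ)‖
          ≤ (C * (Real.exp (-(a₀.re - ε') * (η ⬝ᵥ ζ)) + Real.exp (-(a₀.re + ε') * (η ⬝ᵥ ζ))))
              * (ptNorm p.h0 g X F (φ₀ + ζ)).toReal :=
            mul_le_mul hexp hFb (norm_nonneg _) (by positivity)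
        _ = _ := by ring

/-- for REAL parameters the constant part of the shift is restored by the charge -/
theorem chgFun_real (h0 : ℝ≥0) (g : Grid G) (X : Finset g.I) (Γ : Matrix G.V G.V ℝ) (hΓ : Γ.PosSemidef) (F : Fn G) (θ : ℝ)
    (heq : ∀ z ∈ strip h0 g X, ∀ c : ℝ, F (fun v => z v + (c : ℂ)) = Complex.exp (Complex.I * θ * c) * F z)
    (η : G.V → ℝ) (c0 : ℝ) (z : G.V → ℂ) (hz : z ∈ strip h0 g X) (a : ℝ) :
    Complex.exp (Complex.I * θ * (a * c0)) *
      ∫ ζ, chgFun F η (fun v => Γ.mulVec η v - c0) (η ⬝ᵥ Γ.mulVec η) z a ζ ∂(gauss G Γ) = conv Γ F z := by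
  rw [← cmFun_real Γ hΓ F η z a, ← integral_const_mul]
  refine integral_congr_ae (Eventually.of_forall fun ζ => ?_)
  simp only [chgFun, cmFun]
  have hmem : z + toC ζ + (a : ℂ) • toC (fun v => Γ.mulVec η v - c0) ∈ strip h0 g X := by
    rw [← toC_smul, add_assoc, ← toC_add]
    exact strip_add_toC hz _
  have h1 := heq _ hmem (a * c0)
  have h2 : (fun v => (z + toC ζ + (a : ℂ) • toC (fun v => Γ.mulVec η v - c0)) v + ((a * c0 : ℝ) : ℂ))
      = z + toC ζ + (a : ℂ) • toC (Γ.mulVec η) := by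
    ext v
    simp only [Pi.add_apply, Pi.smul_apply, toC, smul_eq_mul]
    push_cast
    ring
  rw [h2] at h1
  rw [h1]
  push_cast
  ring

/-- **complex Cameron-Martin for a function of charge `θ`**: imaginary shift `i s (Γ η - c₀)`. -/
theorem chg_shift (p : Par) (g : Grid G) (V : Extra g) (X : Finset g.I) (Γ : Matrix G.V G.V ℝ) (hΓ : Γ.PosSemidef) (F : Fn G)
    (hF : Hol p.h0 g X F) (hfin : fnSize p g V X F ≠ ⊤)
    (hint : ∀ φ : G.V → ℝ, ∫⁻ ζ, ENNReal.ofReal (Wt g p.δ p.κ V X (φ + ζ)) ∂(gauss G Γ) ≠ ⊤) (θ : ℝ)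
    (heq : ∀ z ∈ strip p.h0 g X, ∀ c : ℝ, F (fun v => z v + (c : ℂ)) = Complex.exp (Complex.I * θ * c) * F z)
    (η : G.V → ℝ) (c0 s : ℝ) (z : G.V → ℂ)
    (hz : tnorm g X (fun v => (z v).im) + (‖s‖₊ : ℝ≥0) * tnorm g X (fun v => Γ.mulVec η v - c0) < p.h0) :
    conv Γ F z = Complex.exp ((s ^ 2 * (η ⬝ᵥ Γ.mulVec η) / 2 - θ * s * c0 : ℝ)) *
      ∫ ζ, Complex.exp (-(Complex.I * ((s * (η ⬝ᵥ ζ) : ℝ) : ℂ)))
        * F (z + toC ζ + (Complex.I * s) • toC (fun v => Γ.mulVec η v - c0)) ∂(gauss G Γ) := by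
  set u : G.V → ℝ := fun v => Γ.mulVec η v - c0 with hu
  have hz0 : z ∈ strip p.h0 g X := lt_of_le_of_lt le_self_add hz
  have hIs : Complex.I * s ∈ lineDom p.h0 g X z u := by
    show z + (Complex.I * s) • toC u ∈ strip p.h0 g X
    rw [mem_strip]
    have h1 : (fun v => ((z + (Complex.I * s) • toC u) v).im) = (fun v => (z v).im) + s • u := by
      ext v; simp [toC]
    rw [h1]
    refine (tnorm_add_le g X _ _).trans_lt ?_
    rwa [tnorm_smul]
  have h0 : (0 : ℂ) ∈ lineDom p.h0 g X z u := by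
    have := real_mem_lineDom hz0 u 0
    simpa using this
  have hd : DifferentiableOn ℂ (fun a : ℂ => Complex.exp (Complex.I * θ * (a * c0)) *
      ∫ ζ, chgFun F η u (η ⬝ᵥ Γ.mulVec η) z a ζ ∂(gauss G Γ)) (lineDom p.h0 g X z u) :=
    DifferentiableOn.mul (by fun_prop) (chgFun_differentiableOn p g V X Γ hΓ F hF hfin hint η u _ z)
  have key := eqOn_of_real_eq (lineDom_isOpen p.h0 g X z u) (lineDom_convex p.h0 g X z u).isPreconnected
    hd (differentiableOn_const (conv Γ F z)) h0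
    (fun a _ => chgFun_real p.h0 g X Γ hΓ F θ heq η c0 z hz0 a) hIs
  simp only at key
  rw [← key, ← integral_const_mul, ← integral_const_mul]
  refine integral_congr_ae (Eventually.of_forall fun ζ => ?_)
  simp only [chgFun]
  rw [← mul_assoc (Complex.exp _) (Complex.exp _) (F _), ← mul_assoc (Complex.exp _) (Complex.exp _) (F _),
    ← Complex.exp_add, ← Complex.exp_add]
  congr 2
  push_cast
  have hI : Complex.I ^ 2 = -1 := Complex.I_sq
  linear_combination ((θ : ℂ) * s * c0 - (s : ℂ) ^ 2 * ((η ⬝ᵥ Γ.mulVec η : ℝ) : ℂ) / 2) * hI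

end

end Claimed.Agent.R285.Chg
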