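import Claimed.Agent.R285.Chg.Imp
import Claimed.Agent.R285.Chg.Geo
import Claimed.Agent.R285.Chg.Shift

/-!
# ROW 285 / PK-CHG ([B] Lemma 4.6 `rg:charged`) / Main : `charged_gain`, `charged_contraction`      (architect helper15)

EXPORTS (verbatim `B4.charged_gain`, `B4.charged_contraction`): `Chg.chg_charged_gain`, `Chg.chg_charged_contraction`.
-/

set_option autoImplicit false

namespace Claimed.Agent.R285.Chg

open scoped BigOperators ENNReal NNReal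
open MeasureTheory ProbabilityTheory Filter Topology
open Claimed.Agent.R285.RG Claimed.Agent.R285.Hol Claimed.Agent.R285.Reg

noncomputable section

variable {G : Geom}

theorem chg_sites_subset_Dm (g : Grid G) (X : Finset g.I) : g.sites X ⊆ g.Dm X := by
  classical
  refine sites_mono g fun a ha => ?_
  simp only [Grid.collar, Finset.mem_filter, Finset.mem_univ, true_and]
  exact ⟨a, ha, by rw [Geo.geo_idist_self]; omega⟩

/-- one charge, everything explicit -/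
theorem chg_core (Ck ck : ℝ) (ρ R n0 : ℕ) (cst : ℝ≥0) (p : Par) (col : ℕ) (hω : 0 < p.ω) (a : ℝ) (ha : 0 < a)
    (hC1 : (2 * (chgN R n0 * |Ck|) + 1) * a ≤ p.h0) {D0 ℓ : ℕ} (hℓ : 2 * chgN R n0 ≤ 2 ^ ℓ) (P : Pair G D0 ℓ)
    (Γ : Matrix G.V G.V ℝ) (Vf : Extra P.g) (Vc : Extra P.g') (hS : ShellOK Ck ck ρ P Γ)
    (hR : RegStable R n0 cst p.δ p.κ P Vf Vc Γ) (X : Finset P.g.I) (F : Fn G) (u : ℝ≥0∞)
    (hL : LocalInput p col R n0 P.g Vf X F u) (v0 : G.V) (hv0 : v0 ∈ P.g.sites X) (q : ℤ) (hq : q ≠ 0) :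
    fnSize ⟨p.δ, p.κ / 2, p.h0, p.A, p.ω⟩ P.g' Vc (P.N.cl X) (conv Γ (chargeProj p.ω q F))
      ≤ ((max 1 cst ^ n0 : ℝ≥0) : ℝ≥0∞) * u * ENNReal.ofReal (Real.exp (-(a * |(q : ℝ)| * (2 * Real.pi / p.ω) - a ^ 2 / 2) * Γ v0 v0
            + p.h0 * |(q : ℝ)| * (2 * Real.pi / p.ω))) := by
  classical
  set α : ℝ := 2 * Real.pi / p.ω with hα
  have hα0 : 0 < α := by positivity
  set Fq := chargeProj p.ω q F with hFq
  obtain ⟨hloc, hsize, hequi⟩ := chg_charge_proj p hω col P.g Vf X F hL.fn q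
  have hC0 : ((max 1 cst ^ n0 : ℝ≥0) : ℝ≥0∞) ≠ 0 := by
    have : (0 : ℝ≥0) < max 1 cst ^ n0 := pow_pos (lt_max_of_lt_left one_pos) _
    exact_mod_cast this.ne'
  rcases eq_or_ne u ⊤ with rfl | hu
  · rw [ENNReal.mul_top hC0, ENNReal.top_mul (by simpa using Real.exp_pos _)]
    exact le_top
  have hfin : fnSize p P.g Vf X Fq ≠ ⊤ := ne_top_of_le_ne_top hu (hsize.trans hL.bd)
  have hint : ∀ φ : G.V → ℝ, ∫⁻ ζ, ENNReal.ofReal (Wt P.g p.δ p.κ Vf X (φ + ζ)) ∂(gauss G Γ) ≠ ⊤ := fun φ =>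
    ne_top_of_le_ne_top (ENNReal.mul_ne_top (ENNReal.pow_ne_top ENNReal.coe_ne_top) ENNReal.ofReal_ne_top)
      (hR.small X hL.conn hL.small φ)
  rw [fnSize_le_iff]
  intro φ f hf
  change tnorm P.g' (P.N.cl X) f < p.h0 at hf
  change (‖conv Γ Fq (toC φ + f)‖₊ : ℝ≥0∞) ≤ _ * ENNReal.ofReal (Wt P.g' p.δ (p.κ / 2) Vc (P.N.cl X) φ)
  -- the geometric constants
  set N := chgN R n0 with hN
  have hN1 : 1 ≤ N := by rw [hN]; unfold chgN; omega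
  set η : G.V → ℝ := Pi.single v0 1 with hη
  set wt : G.V → ℝ := fun v => Γ.mulVec η v - Γ v0 v0 with hwt
  set ft : G.V → ℂ := fun v => f v - f v0 with hft
  have hw : (tnorm P.g X wt : ℝ) ≤ N * |Ck| :=
    (chg_tnorm_kernel P.g P.ok R n0 X hL.conn hL.small v0 hv0 Γ Ck hS.bounds.mixed).trans
      (by gcongr; exact le_abs_self _)
  have hf1 : (2 ^ ℓ : ℝ≥0) * tnorm P.g X ft ≤ (N : ℝ≥0) * tnorm P.g' (P.N.cl X) f :=
    chg_tnorm_fine P R n0 (by rw [hN] at hℓ; unfold chgN at hℓ; omega) X hL.conn hL.small v0 hv0 f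
  have hf2 : 2 * (tnorm P.g X ft : ℝ) ≤ tnorm P.g' (P.N.cl X) f := by
    have h1 : ((2 ^ ℓ : ℝ≥0) : ℝ) * tnorm P.g X ft ≤ (N : ℝ) * tnorm P.g' (P.N.cl X) f := by exact_mod_cast hf1
    have h2 : (2 * N : ℝ) ≤ ((2 ^ ℓ : ℝ≥0) : ℝ) := by
      have : ((2 * N : ℕ) : ℝ) ≤ ((2 ^ ℓ : ℕ) : ℝ) := by exact_mod_cast hℓ
      push_cast at this ⊢
      exact this
    have h3 : (2 * N : ℝ) * tnorm P.g X ft ≤ (N : ℝ) * tnorm P.g' (P.N.cl X) f :=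
      (mul_le_mul_of_nonneg_right h2 (NNReal.coe_nonneg _)).trans h1
    have hNpos : (0 : ℝ) < N := by exact_mod_cast hN1
    nlinarith
  have hfR : (tnorm P.g' (P.N.cl X) f : ℝ) < p.h0 := by exact_mod_cast hf
  -- the shift
  set s : ℝ := if 0 < q then a else -a with hs
  have hsabs : |s| = a := by
    rw [hs]; split_ifs
    · exact abs_of_pos ha
    · rw [abs_neg, abs_of_pos ha]
  have hsq : (q : ℝ) * s = |(q : ℝ)| * a := by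
    rw [hs]; split_ifs with h
    · rw [abs_of_pos (by exact_mod_cast h)]
    · have : (q : ℝ) < 0 := by exact_mod_cast lt_of_le_of_ne (not_lt.1 h) hq
      rw [abs_of_neg this]; ring
  have hsum : (tnorm P.g X ft : ℝ) + |s| * tnorm P.g X wt < p.h0 := by
    rw [hsabs]
    have h1 : a * (tnorm P.g X wt : ℝ) ≤ a * (N * |Ck|) := by gcongr
    nlinarith
  have hsumNN : tnorm P.g X ft + ‖s‖₊ * tnorm P.g X wt < p.h0 := by
    rw [← NNReal.coe_lt_coe]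
    push_cast
    simpa using hsum
  -- memberships
  have hfX : tnorm P.g X f < p.h0 := (tnorm_coarse P X _ le_rfl f).trans_lt hf
  have hftX : tnorm P.g X ft < p.h0 := lt_of_le_of_lt le_self_add hsumNN
  have hz' : toC φ + ft ∈ strip p.h0 P.g X := toC_add_mem_strip φ hftX
  -- STEP 1: the constant `f v₀`
  have step1 : conv Γ Fq (toC φ + f) = Complex.exp (Complex.I * q * ((α : ℝ) : ℂ) * f v0) * conv Γ Fq (toC φ + ft) := by
    unfold conv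
    rw [← integral_const_mul]
    refine integral_congr_ae (Eventually.of_forall fun ζ => ?_)
    have h1 : (fun v => (toC φ + ft + toC ζ) v + f v0) = toC φ + f + toC ζ := by
      ext v; simp only [Pi.add_apply, hft]; ring
    have h2 := hequi (toC φ + ft + toC ζ) (f v0) (strip_add_toC hz' ζ)
      (by rw [h1]; exact strip_add_toC (toC_add_mem_strip φ hfX) ζ)
    rw [h1] at h2
    exact h2
  -- STEP 2: the complex translation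
  have heq : ∀ z ∈ strip p.h0 P.g X, ∀ c : ℝ,
      Fq (fun v => z v + (c : ℂ)) = Complex.exp (Complex.I * (((q : ℝ) * α : ℝ) : ℂ) * c) * Fq z := by
    intro z hz c
    refine (hequi z c hz (strip_add_real hz c)).trans ?_
    congr 2
    rw [hα]
    push_cast
    ring
  have hzs : tnorm P.g X (fun v => ((toC φ + ft) v).im) + (‖s‖₊ : ℝ≥0) * tnorm P.g X (fun v => Γ.mulVec η v - Γ v0 v0) < p.h0 := by
    refine lt_of_le_of_lt ?_ hsumNN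
    gcongr
    have : (fun v => ((toC φ + ft) v).im) = fun v => (ft v).im := by ext v; simp [toC]
    rw [this]
    exact tnorm_im_le _ _ _
  have step2 := chg_shift p P.g Vf X Γ hS.psd Fq hloc.hol hfin hint ((q : ℝ) * α) heq η (Γ v0 v0) s (toC φ + ft) hzs
  have hηη : η ⬝ᵥ Γ.mulVec η = Γ v0 v0 := by
    rw [hη]; simp
  rw [hηη] at step2
  -- STEP 3: norms
  have hI : (‖∫ ζ, Complex.exp (-(Complex.I * ((s * (η ⬝ᵥ ζ) : ℝ) : ℂ)))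
        * Fq (toC φ + ft + toC ζ + (Complex.I * s) • toC wt) ∂(gauss G Γ)‖₊ : ℝ≥0∞)
      ≤ u * ((cst : ℝ≥0∞) ^ X.card * ENNReal.ofReal (Wt P.g' p.δ (p.κ / 2) Vc (P.N.cl X) φ)) := by
    calc _ ≤ ∫⁻ ζ, (‖Complex.exp (-(Complex.I * ((s * (η ⬝ᵥ ζ) : ℝ) : ℂ)))
          * Fq (toC φ + ft + toC ζ + (Complex.I * s) • toC wt)‖₊ : ℝ≥0∞) ∂(gauss G Γ) := enorm_integral_le_lintegral_enorm _
      _ ≤ ∫⁻ ζ, u * ENNReal.ofReal (Wt P.g p.δ p.κ Vf X (φ + ζ)) ∂(gauss G Γ) := by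
          refine lintegral_mono fun ζ => ?_
          have h1 : ‖Complex.exp (-(Complex.I * ((s * (η ⬝ᵥ ζ) : ℝ) : ℂ)))‖₊ = 1 := by
            rw [← NNReal.coe_inj, coe_nnnorm, Complex.norm_exp]
            simp
          rw [nnnorm_mul, h1, one_mul]
          have h2 : toC φ + ft + toC ζ + (Complex.I * s) • toC wt = toC (φ + ζ) + (ft + (Complex.I * s) • toC wt) := by
            rw [toC_add]; abel
          rw [h2]
          have h3 : tnorm P.g X (ft + (Complex.I * s) • toC wt) < p.h0 := by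
            refine lt_of_le_of_lt ((tnorm_add_le _ _ _ _).trans ?_) hsumNN
            gcongr
            rw [tnorm_smul, tnorm_toC]
            gcongr
            rw [nnnorm_mul]; simp
          exact (nnnorm_le_fnSize_mul p P.g Vf X Fq (φ + ζ) _ h3).trans (by gcongr; exact hsize.trans hL.bd)
      _ = u * ∫⁻ ζ, ENNReal.ofReal (Wt P.g p.δ p.κ Vf X (φ + ζ)) ∂(gauss G Γ) := lintegral_const_mul' _ _ hu
      _ ≤ _ := by gcongr; exact hR.small X hL.conn hL.small φ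
  have hA : (‖Complex.exp (Complex.I * q * ((α : ℝ) : ℂ) * f v0)‖₊ : ℝ≥0∞) ≤ ENNReal.ofReal (Real.exp (p.h0 * |(q : ℝ)| * α)) := by
    rw [← enorm_eq_nnnorm, ← ofReal_norm, Complex.norm_exp]
    refine ENNReal.ofReal_le_ofReal (Real.exp_le_exp.2 ?_)
    have h1 : (Complex.I * q * ((α : ℝ) : ℂ) * f v0).re = -((q : ℝ) * α * (f v0).im) := by
      simp [Complex.mul_re, Complex.mul_im]
    have h2 : ‖f v0‖ ≤ p.h0 := by
      have := ((tnorm_spec P.g X f v0 (chg_sites_subset_Dm P.g X hv0)).1.trans hfX.le)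
      exact_mod_cast this
    have h3 : |(f v0).im| ≤ p.h0 := (Complex.abs_im_le_norm _).trans h2
    rw [h1]
    calc -((q : ℝ) * α * (f v0).im) ≤ |(q : ℝ) * α * (f v0).im| := neg_le_abs _
      _ = |(q : ℝ)| * α * |(f v0).im| := by rw [abs_mul, abs_mul, abs_of_pos hα0]
      _ ≤ |(q : ℝ)| * α * p.h0 := by gcongr
      _ = _ := by ring
  have hB : (‖Complex.exp ((s ^ 2 * Γ v0 v0 / 2 - (q : ℝ) * α * s * Γ v0 v0 : ℝ))‖₊ : ℝ≥0∞)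
      = ENNReal.ofReal (Real.exp (-(a * |(q : ℝ)| * α - a ^ 2 / 2) * Γ v0 v0)) := by
    rw [← enorm_eq_nnnorm, ← ofReal_norm, Complex.norm_exp, Complex.ofReal_re]
    congr 2
    have h1 : s ^ 2 = a ^ 2 := by rw [← sq_abs, hsabs]
    rw [h1]
    linear_combination (-(α * Γ v0 v0)) * hsq
  have hcst : (cst : ℝ≥0∞) ^ X.card ≤ ((max 1 cst ^ n0 : ℝ≥0) : ℝ≥0∞) := by
    have : cst ^ X.card ≤ max 1 cst ^ n0 :=
      (pow_le_pow_left₀ zero_le (le_max_right _ _) _).trans (pow_le_pow_right₀ (le_max_left _ _) hL.small)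
    exact_mod_cast this
  rw [step1, step2, nnnorm_mul, nnnorm_mul, ENNReal.coe_mul, ENNReal.coe_mul, hB, Real.exp_add,
    ENNReal.ofReal_mul (Real.exp_pos _).le]
  calc _ ≤ ENNReal.ofReal (Real.exp (p.h0 * |(q : ℝ)| * α)) * (ENNReal.ofReal (Real.exp (-(a * |(q : ℝ)| * α - a ^ 2 / 2) * Γ v0 v0))
        * (u * (((max 1 cst ^ n0 : ℝ≥0) : ℝ≥0∞) * ENNReal.ofReal (Wt P.g' p.δ (p.κ / 2) Vc (P.N.cl X) φ)))) := by
        gcongr
        exact hI.trans (by gcongr)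
    _ = _ := by ring

/-- **Lemma 4.6**, general form (rg:general-charge-gain) = [B] (4.26) quoted in [F] P4.2: one charge, shift amplitude `a`, `h₀ ≥ C₁ a`.   Verbatim `B4.charged_gain`. -/
theorem chg_charged_gain (Ck ck : ℝ) (ρ R n0 : ℕ) (cst : ℝ≥0) : ∃ C1 : ℝ, ∀ (δ κ : ℝ) (h0 : ℝ≥0), 0 < δ → 0 < κ → ∀ a : ℝ, 0 < a →
    C1 * a ≤ h0 → ∃ (C : ℝ≥0) (ℓ0 D1 : ℕ), ∀ (p : Par) (col : ℕ), p.δ = δ → p.κ = κ → p.h0 = h0 → 0 < p.ω →
      ∀ D0 ≥ D1, ∀ (G : Geom) (ℓ : ℕ), ℓ0 ≤ ℓ → ∀ (P : Pair G D0 ℓ) (Γ : Matrix G.V G.V ℝ)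
      (Vf : Extra P.g) (Vc : Extra P.g'), ShellOK Ck ck ρ P Γ → RegStable R n0 cst p.δ p.κ P Vf Vc Γ →
      ∀ (X : Finset P.g.I) (F : Fn G) (u : ℝ≥0∞), LocalInput p col R n0 P.g Vf X F u →
      ∀ v0 ∈ P.g.sites X, ∀ q : ℤ, q ≠ 0 →
        fnSize ⟨p.δ, p.κ / 2, p.h0, p.A, p.ω⟩ P.g' Vc (P.N.cl X) (conv Γ (chargeProj p.ω q F))
          ≤ C * u * ENNReal.ofReal (Real.exp (-(a * |(q : ℝ)| * (2 * Real.pi / p.ω) - a ^ 2 / 2) * Γ v0 v0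
                + p.h0 * |(q : ℝ)| * (2 * Real.pi / p.ω))) := by
  refine ⟨2 * (chgN R n0 * |Ck|) + 1, fun δ κ h0 _ _ a ha hC1 => ⟨max 1 cst ^ n0, 2 * chgN R n0, 0, ?_⟩⟩
  intro p col _ _ hh hω D0 _ G ℓ hℓ P Γ Vf Vc hS hR X F u hL v0 hv0 q hq
  refine chg_core Ck ck ρ R n0 cst p col hω a ha (by rw [hh]; exact hC1) ?_ P Γ Vf Vc hS hR X F u hL v0 hv0 q hq
  exact hℓ.trans Nat.lt_two_pow_self.le

theorem chg_U_nonneg (g : Grid G) {δ : ℝ} (hδ : 0 ≤ δ) (X : Finset g.I) (φ : G.V → ℝ) : 0 ≤ U g δ X φ := by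
  unfold U gE PE TE
  have h1 : 0 ≤ ∑ v ∈ g.Dm X, ∑ e : Fin 4, (if G.π (G.ι v + dir e) ∈ g.Dm X then 0 else dif (dir e) (G.lift φ) (G.ι v) ^ 2) :=
    Finset.sum_nonneg fun v _ => Finset.sum_nonneg fun e _ => by split_ifs <;> positivity
  positivity

/-- a larger exponent gives a smaller size -/
theorem chg_fnSize_anti (δ κ κ' : ℝ) (h0 : ℝ≥0) (A ω : ℝ) (hδ : 0 ≤ δ) (hκ : κ' ≤ κ) (g : Grid G) (V : Extra g) (X : Finset g.I)
    (F : Fn G) : fnSize ⟨δ, κ, h0, A, ω⟩ g V X F ≤ fnSize ⟨δ, κ', h0, A, ω⟩ g V X F := by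
  rw [fnSize_le_iff]
  intro φ f hf
  refine (nnnorm_le_fnSize_mul ⟨δ, κ', h0, A, ω⟩ g V X F φ f hf).trans ?_
  gcongr
  unfold Wt
  have := chg_U_nonneg g hδ X φ
  gcongr

theorem chg_exists_site (g : Grid G) (hg : g.Ok) (X : Finset g.I) (hX : X.Nonempty) : ∃ v0, v0 ∈ g.sites X := by
  obtain ⟨b, hb⟩ := hX
  obtain ⟨i, hi⟩ := hg.surj b.1
  obtain ⟨j, hj⟩ := hg.surj b.2
  refine ⟨(i, j), Finset.mem_filter.2 ⟨Finset.mem_univ _, ?_⟩⟩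
  have : g.blk (i, j) = b := Prod.ext hi hj
  rw [this]
  exact hb

/-! ### LEAF `CHG-M1` : `chg_tsum_exp`   (~60 lines, Mathlib only)
PLAN.  `{q : ℤ // q ≠ 0} ≃ ℕ ⊕ ℕ` (`n ↦ n + 1`, `n ↦ -(n + 1)`) or: `∑' q : {q // q ≠ 0}, f q ≤ ∑' n : ℕ, f (n + 1) + ∑' n : ℕ, f (-(n + 1))` through `ENNReal.tsum_comp_le_tsum_of_injective`/`Equiv.tsum_eq`, `tsum_sum`;
each half is `∑ₙ ofReal (e⁻¹)^(n+1) = e⁻¹ / (1 - e⁻¹) ≤ 1` (`ENNReal.tsum_geometric`, or `ENNReal.ofReal_tsum_of_nonneg` + `tsum_geometric_of_lt_one`), `e ≥ 2` (`Real.add_one_le_exp 1`). -/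
theorem chg_tsum_exp : ∑' q : {q : ℤ // q ≠ 0}, ENNReal.ofReal (Real.exp (-|((q : ℤ) : ℝ)|)) ≤ 2 := by
  set g : Bool × ℕ → ℝ≥0∞ := fun x => (2⁻¹ : ℝ≥0∞) ^ (x.2 + 1) with hg
  set φ : {q : ℤ // q ≠ 0} → Bool × ℕ := fun q => (decide (0 < (q : ℤ)), (q : ℤ).natAbs - 1) with hφ
  have hinj : Function.Injective φ := by
    intro a b hab
    simp only [hφ, Prod.mk.injEq, decide_eq_decide] at hab
    have ha := a.2
    have hb := b.2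
    apply Subtype.ext
    omega
  have hr : ENNReal.ofReal (Real.exp (-1)) ≤ 2⁻¹ := by
    have h1 : Real.exp (-1) ≤ 2⁻¹ := by
      rw [Real.exp_neg]
      have := Real.add_one_le_exp 1
      exact inv_anti₀ (by norm_num) (by linarith)
    calc ENNReal.ofReal (Real.exp (-1)) ≤ ENNReal.ofReal 2⁻¹ := ENNReal.ofReal_le_ofReal h1
      _ = 2⁻¹ := by rw [ENNReal.ofReal_inv_of_pos (by norm_num)]; norm_num
  have hterm : ∀ q : {q : ℤ // q ≠ 0}, ENNReal.ofReal (Real.exp (-|((q : ℤ) : ℝ)|)) ≤ g (φ q) := by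
    intro q
    have h0 : (q : ℤ).natAbs - 1 + 1 = (q : ℤ).natAbs := by
      have := q.2
      omega
    have h1 : -|((q : ℤ) : ℝ)| = (((q : ℤ).natAbs - 1 + 1 : ℕ) : ℝ) * (-1) := by
      rw [h0, Nat.cast_natAbs]
      push_cast
      ring
    simp only [hg, hφ]
    rw [h1, Real.exp_nat_mul, ENNReal.ofReal_pow (Real.exp_pos _).le]
    exact pow_le_pow_left₀ zero_le hr _
  calc ∑' q : {q : ℤ // q ≠ 0}, ENNReal.ofReal (Real.exp (-|((q : ℤ) : ℝ)|))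
      ≤ ∑' q : {q : ℤ // q ≠ 0}, g (φ q) := ENNReal.tsum_le_tsum hterm
    _ ≤ ∑' x, g x := ENNReal.tsum_comp_le_tsum_of_injective hinj g
    _ = ∑' (b : Bool), ∑' n : ℕ, (2⁻¹ : ℝ≥0∞) ^ (n + 1) :=
        ENNReal.tsum_prod (f := fun (_ : Bool) (n : ℕ) => (2⁻¹ : ℝ≥0∞) ^ (n + 1))
    _ = 2 := by
      rw [ENNReal.tsum_geometric_add_one, ENNReal.one_sub_inv_two, inv_inv,
        ENNReal.inv_mul_cancel (by norm_num) (by norm_num), tsum_fintype]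
      simp

theorem chg_ofReal_L4 (ℓ : ℕ) : ENNReal.ofReal (Real.exp (-(4 * Real.log (2 ^ ℓ)))) = (2 ^ ℓ : ℝ≥0∞)⁻¹ ^ 4 := by
  have hx : (0 : ℝ) < 2 ^ ℓ := by positivity
  have h1 : Real.exp (-(4 * Real.log (2 ^ ℓ))) = ((2 ^ ℓ : ℝ)⁻¹) ^ 4 := by
    have h2 : Real.log (((2 ^ ℓ : ℝ)⁻¹) ^ 4) = -(4 * Real.log (2 ^ ℓ)) := by
      rw [Real.log_pow _ 4, Real.log_inv]
      push_cast
      ring
    rw [← h2, Real.exp_log (by positivity)]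
  rw [h1, ENNReal.ofReal_pow (by positivity), ENNReal.ofReal_inv_of_pos hx, ENNReal.ofReal_pow (by norm_num)]
  norm_num

/-- the arithmetic of the exponent -/
theorem chg_exponent (H lam LL α Q Γ00 : ℝ) (hlam : H + 1 ≤ lam) (hH : 0 ≤ H) (hLL : 0 ≤ LL) (hα : lam / 2 + 4 * LL + 1 ≤ α) (hQ : 1 ≤ Q)
    (hΓ : lam ≤ Γ00) : -(1 * Q * α - 1 ^ 2 / 2) * Γ00 + H * Q * α ≤ -Q + -(4 * LL) := by
  have hα1 : 1 ≤ α := by nlinarith
  have hQα : 1 ≤ Q * α := by nlinarith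
  have h1 : (Q * α - 1 / 2) * lam ≤ (Q * α - 1 / 2) * Γ00 := by
    apply mul_le_mul_of_nonneg_left hΓ; linarith
  have h2 : Q * α * 1 ≤ Q * α * (lam - H) := by
    apply mul_le_mul_of_nonneg_left (by linarith) (by linarith)
  have h3 : Q * (lam / 2 + 4 * LL + 1) ≤ Q * α := by
    apply mul_le_mul_of_nonneg_left hα (by linarith)
  have h4 : 1 * (lam / 2 + 4 * LL) ≤ Q * (lam / 2 + 4 * LL) := by
    apply mul_le_mul_of_nonneg_right hQ; nlinarith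
  nlinarith

/-- **Lemma 4.6** (rg:charge-gain): choices `h₀`, then `L`, then `α₀`.   Verbatim `B4.charged_contraction`. -/
theorem chg_charged_contraction (Ck ck : ℝ) (hck : 0 < ck) (ρ R n0 : ℕ) (cst : ℝ≥0) (δ κ : ℝ) (hδ : 0 < δ) (hκ : 0 < κ) :
    ∃ h0 : ℝ≥0, 0 < h0 ∧ ∃ (C : ℝ≥0) (ℓ0 D1 : ℕ), ∀ ℓ : ℕ, ℓ0 ≤ ℓ → ∃ α0 : ℝ, ∀ (A ω : ℝ) (col : ℕ), 0 < ω → α0 ≤ 2 * Real.pi / ω →
      ∀ D0 ≥ D1, ∀ (G : Geom) (P : Pair G D0 ℓ) (Γ : Matrix G.V G.V ℝ) (Vf : Extra P.g) (Vc : Extra P.g'),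
      ShellOK Ck ck ρ P Γ → RegStable R n0 cst δ κ P Vf Vc Γ →
      ∀ (X : Finset P.g.I) (F : Fn G) (u : ℝ≥0∞), LocalInput ⟨δ, κ, h0, A, ω⟩ col R n0 P.g Vf X F u →
        ∑' q : {q : ℤ // q ≠ 0}, fnSize ⟨δ, κ, h0, A, ω⟩ P.g' Vc (P.N.cl X) (conv Γ (chargeProj ω q F))
          ≤ C * u * (2 ^ ℓ : ℝ≥0∞)⁻¹ ^ 4 := by
  set H : ℝ := 2 * (chgN R n0 * |Ck|) + 1 with hHdef
  have hH : 0 < H := by positivity
  have hlog2 : 0 < Real.log 2 := Real.log_pos (by norm_num)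
  obtain ⟨ℓ1, hℓ1⟩ := exists_nat_ge ((H + 1) / (ck * Real.log 2))
  refine ⟨⟨H, hH.le⟩, hH, 2 * max 1 cst ^ n0, max (2 * chgN R n0) ℓ1, 0, fun ℓ hℓ => ?_⟩
  set LL : ℝ := Real.log (2 ^ ℓ) with hLL
  have hLLeq : LL = ℓ * Real.log 2 := by rw [hLL, Real.log_pow]
  have hLL0 : 0 ≤ LL := by rw [hLLeq]; positivity
  have hlam : H + 1 ≤ ck * LL := by
    have h1 : (ℓ1 : ℝ) ≤ ℓ := by exact_mod_cast (le_max_right _ _).trans hℓ
    have h2 : (H + 1) / (ck * Real.log 2) ≤ ℓ := hℓ1.trans h1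
    rw [div_le_iff₀ (by positivity)] at h2
    rw [hLLeq]; linarith
  refine ⟨ck * LL / 2 + 4 * LL + 1, ?_⟩
  intro A ω col hω hα D0 _ G P Γ Vf Vc hS hR X F u hL
  obtain ⟨v0, hv0⟩ := chg_exists_site P.g P.ok X hL.conn.1
  have hΓ : ck * LL ≤ Γ v0 v0 := by
    have := hS.bounds.diag v0
    push_cast at this
    exact this
  have key : ∀ q : {q : ℤ // q ≠ 0}, fnSize ⟨δ, κ, ⟨H, hH.le⟩, A, ω⟩ P.g' Vc (P.N.cl X) (conv Γ (chargeProj ω q F))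
      ≤ (((max 1 cst ^ n0 : ℝ≥0) : ℝ≥0∞) * u * (2 ^ ℓ : ℝ≥0∞)⁻¹ ^ 4) * ENNReal.ofReal (Real.exp (-|((q : ℤ) : ℝ)|)) := by
    intro q
    have h1 := chg_core Ck ck ρ R n0 cst ⟨δ, κ, ⟨H, hH.le⟩, A, ω⟩ col hω 1 one_pos
      (by show (2 * (chgN R n0 * |Ck|) + 1) * 1 ≤ H; rw [mul_one])
      (((le_max_left _ _).trans hℓ).trans Nat.lt_two_pow_self.le) P Γ Vf Vc hS hR X F u hL v0 hv0 q.1 q.2
    refine (chg_fnSize_anti δ κ (κ / 2) _ A ω hδ.le (by linarith) P.g' Vc _ _).trans (h1.trans ?_)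
    have hQ : (1 : ℝ) ≤ |((q : ℤ) : ℝ)| := by
      have : (1 : ℤ) ≤ |(q : ℤ)| := Int.one_le_abs q.2
      exact_mod_cast this
    have h2 := chg_exponent H (ck * LL) LL (2 * Real.pi / ω) |((q : ℤ) : ℝ)| (Γ v0 v0) hlam hH.le hLL0 hα hQ hΓ
    rw [mul_assoc _ ((2 ^ ℓ : ℝ≥0∞)⁻¹ ^ 4), ← chg_ofReal_L4, ← ENNReal.ofReal_mul (Real.exp_pos _).le, ← Real.exp_add]
    refine mul_le_mul' le_rfl (ENNReal.ofReal_le_ofReal (Real.exp_le_exp.2 ?_))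
    exact h2.trans (le_of_eq (by ring))
  calc _ ≤ ∑' q : {q : ℤ // q ≠ 0}, (((max 1 cst ^ n0 : ℝ≥0) : ℝ≥0∞) * u * (2 ^ ℓ : ℝ≥0∞)⁻¹ ^ 4)
        * ENNReal.ofReal (Real.exp (-|((q : ℤ) : ℝ)|)) := ENNReal.tsum_le_tsum key
    _ = (((max 1 cst ^ n0 : ℝ≥0) : ℝ≥0∞) * u * (2 ^ ℓ : ℝ≥0∞)⁻¹ ^ 4) * ∑' q : {q : ℤ // q ≠ 0}, ENNReal.ofReal (Real.exp (-|((q : ℤ) : ℝ)|)) :=
        ENNReal.tsum_mul_left
    _ ≤ (((max 1 cst ^ n0 : ℝ≥0) : ℝ≥0∞) * u * (2 ^ ℓ : ℝ≥0∞)⁻¹ ^ 4) * 2 := by gcongr; exact chg_tsum_exp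
    _ = _ := by push_cast; ring

end

end Claimed.Agent.R285.Chg
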