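import Claimed.Agent.R285.Base.RG
import Claimed.Agent.R285.Hol.Ch

/-!
# ROW 285 / PK-CHG / Imp : the ONE statement imported from PK-HOL (helper278), verbatim copy of `B4.charge_proj`.
WIRED (helper278): `Hol/Ch.lean` is on main, 0 sorry.
-/

set_option autoImplicit false

namespace Claimed.Agent.R285.Chg

open scoped BigOperators ENNReal NNReal
open Claimed.Agent.R285.RG

variable {G : Geom}

theorem chg_charge_proj (p : Par) (hω : 0 < p.ω) (col : ℕ) (g : Grid G) (V : Extra g) (X : Finset g.I) (F : Fn G)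
    (hF : LocalFn p col g X F) (q : ℤ) :
    LocalFn p col g X (chargeProj p.ω q F) ∧ fnSize p g V X (chargeProj p.ω q F) ≤ fnSize p g V X F ∧
    ∀ (z : G.V → ℂ) (c : ℂ), z ∈ strip p.h0 g X → (fun v => z v + c) ∈ strip p.h0 g X →
      chargeProj p.ω q F (fun v => z v + c) = Complex.exp (Complex.I * q * ((2 * Real.pi / p.ω : ℝ) : ℂ) * c) * chargeProj p.ω q F z :=
  Hol.charge_proj p hω col g V X F hF q

end Claimed.Agent.R285.Chg
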